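import Vale.Agent.Q017A.Linked

open NumberField IsDedekindDomain Vale.Agent.Q017 Vale.Agent.Q017A

namespace Vale.Agent.Results.P017.SmallImages

/-- Elliptic curves over an imaginary quadratic field whose `3`-torsion and `5`-torsion are not
absolutely irreducible over `K(ζ₃)` and `K(ζ₅)`. -/
theorem result (K : Type) [Field K] [NumberField K] [Algebra.IsQuadraticExtension ℚ K]
    [IsTotallyComplex K] (E : WeierstrassCurve K) [E.IsElliptic] :
    Link E 2 ∧ (Big E ∨ QCurve E ∨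
      (Line E 5 Set.univ ∧ AbsIrr E 2 (Cyc K 4) ∧
      (3 ≤ {v : HeightOneSpectrum (𝓞 K) | 1 < v.valuation K E.j}.encard ∨ Exc E.j) ∧
      (∀ v : HeightOneSpectrum (𝓞 K), Ideal.absNorm v.asIdeal = 2 → 1 < v.valuation K E.j) ∧
      (Line E 3 Set.univ ∧ Ord E 2 (Cyc K 4) ∨ Ord E 3 Set.univ ∧ Link E 3))) :=
  ⟨link2 E, linked E⟩

end Vale.Agent.Results.P017.SmallImages
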